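import Vale.Agent.P213.Spec

/-!
# P213: Ex preserves filtered colimits

The subdivided simplices are nerves of finite posets, hence finite simplicial sets, hence finitely
presentable.
-/

universe u

namespace Vale.Agent.P213

open CategoryTheory Limits Simplicial Opposite

noncomputable section

/-- The nerve of a finite poset is a finite simplicial set. -/
theorem SSetH.finite_nerve (P : Type u) [PartialOrder P] [Finite P] : (nerve P).Finite := by
  have : (nerve P).HasDimensionLT (Nat.card P) := ⟨fun n hn => by
    ext x
    simp only [SSet.mem_degenerate_iff_notMem_nonDegenerate, Set.top_eq_univ, Set.mem_univ,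
      iff_true]
    intro hx
    rw [PartialOrder.mem_nerve_nonDegenerate_iff_injective] at hx
    have := Nat.card_le_card_of_injective _ hx
    simp at this
    omega⟩
  refine SSet.finite_of_hasDimensionLT _ (Nat.card P) fun i _ => ?_
  have : Finite ((nerve P) _⦋i⦌) :=
    Finite.of_injective (fun x : (nerve P) _⦋i⦌ => x.obj) fun x y h => by
      ext j
      exact congrFun h j
  infer_instance

instance (m : SimplexCategory) : IsFinitelyPresentable.{u} (SimplexCategory.sd.{u}.obj m) := by
  have : (SimplexCategory.sd.{u}.obj m).Finite := by
    have : Finite (SimplexCategory.toPartOrd.{u}.obj m) :=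
      inferInstanceAs (Finite (ULift.{u} (Fin (m.len + 1))))
    have : Finite (PartialOrder.NonemptyFiniteChains (SimplexCategory.toPartOrd.{u}.obj m)) :=
      Finite.of_injective (fun c => c.finset) fun c c' h => PartialOrder.NonemptyFiniteChains.ext h
    exact SSetH.finite_nerve (PartialOrder.NonemptyFiniteChains (SimplexCategory.toPartOrd.{u}.obj m))
  infer_instance

theorem exFiltered : Spec.ExFiltered.{u} := fun J _ _ => by
  apply preservesColimitsOfShape_of_evaluation
  intro m
  have : PreservesColimitsOfShape J (coyoneda.obj (op (SimplexCategory.sd.{u}.obj m.unop))) :=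
    inferInstance
  exact inferInstanceAs (PreservesColimitsOfShape J
    (coyoneda.obj (op (SimplexCategory.sd.{u}.obj m.unop)) ⋙ uliftFunctor.{0}))

end

end Vale.Agent.P213
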