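import Vale.Agent.P213.SSet.Ex.Eta
import Vale.Agent.P213.SSet.SdNerve
import Vale.Agent.P213.SSet.Chain
import Vale.Agent.P213.SSet.SpecBasic
import Vale.Agent.P213.Transfer.CoprodCells

/-!
# P213: the last vertex map is a weak equivalence

The natural map `sd X ⟶ X` adjunct to `X ⟶ Ex X`: on a simplex both sides are contractible, and
the general case follows by attaching cells.
-/

universe u

namespace Vale.Agent.P213.SSetH

open CategoryTheory CategoryTheory.Limits MorphismProperty Simplicial Opposite PartialOrder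
  HomotopicalAlgebra SdNerve

noncomputable section

/-- The last vertex map. -/
def lastVertexMap : SSet.sd.{u} ⟶ 𝟭 SSet.{u} :=
  Functor.whiskerRight toEx SSet.sd ≫ SSet.sdExAdjunction.counit

theorem we_sd_stdSimplex_from (m : ℕ) :
    WE (terminal.from (SSet.sd.obj (Δ[m] : SSet.{u}))) := by
  have : Finite (Spec.Face.{u} m) :=
    Finite.of_injective NonemptyFiniteChains.finset fun _ _ h => NonemptyFiniteChains.ext h
  let T : Spec.Face.{u} m :=
    { finset := Finset.univ
      nonempty := Finset.univ_nonempty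
      comparable := fun a b => le_total a.1.down b.1.down }
  let v₀ : (nerve (Spec.Face.{u} m)) _⦋0⦌ := ComposableArrows.mk₀ T
  have hw : Spec.weq.{u} (terminal.from (nerve (Spec.Face.{u} m))) := by
    refine weqHomotopyEquiv _ _ _ (SSet.const v₀) ?_ ?_
    · have h := nerveHomotopy (Spec.Face.{u} m) (Spec.Face.{u} m) (fun s => s) (fun _ => T)
        monotone_id monotone_const (fun s => Finset.subset_univ _)
      rw [SSet.comp_const]
      have e1 : nerveMap (monotone_id (α := Spec.Face.{u} m)).functor = 𝟙 _ := rfl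
      have e2 : nerveMap (monotone_const (α := Spec.Face.{u} m) (c := T)).functor =
          SSet.const v₀ := by
        apply NatTrans.ext
        funext k
        exact ConcreteCategory.hom_ext _ _ fun y =>
          nerve.ext_of_isThin (C := Spec.Face.{u} m) (funext fun i => rfl)
      rw [← e1, ← e2]
      exact h.symm _ _
    · rw [terminalIsTerminal.hom_ext (SSet.const v₀ ≫ terminal.from _) (𝟙 _)]
      exact Relation.EqvGen.refl _
  rw [weq_eq] at hw
  let e : SSet.sd.obj (Δ[m] : SSet.{u}) ≅ nerve (Spec.Face.{u} m) :=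
    SSet.stdSimplex.sdIso.app ⦋m⦌
  rw [terminal.hom_ext (terminal.from _) (e.hom ≫ terminal.from (nerve (Spec.Face.{u} m)))]
  exact WE.comp (we_of_isIso e.hom) hw

theorem we_lastVertexMap_stdSimplex (m : ℕ) : WE (lastVertexMap.app (Δ[m] : SSet.{u})) := by
  have e : lastVertexMap.app (Δ[m] : SSet.{u}) ≫ terminal.from _ = terminal.from _ :=
    terminal.hom_ext _ _
  have h1 : WE (terminal.from (Δ[m] : SSet.{u})) := by
    rw [terminal.hom_ext (terminal.from _)
      (SSet.stdSimplex.isTerminalObj₀.from (Δ[m] : SSet.{u}) ≫ terminal.from _)]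
    have : IsIso (terminal.from (Δ[0] : SSet.{u})) :=
      isIso_of_isTerminal SSet.stdSimplex.isTerminalObj₀.{u} terminalIsTerminal.{u} _
    exact WE.comp (we_stdSimplex_from m) (we_of_isIso _)
  exact WE.of_comp_right h1 (e.symm ▸ we_sd_stdSimplex_from m)

theorem mono_sd_boundary (m : ℕ) : Mono (SSet.sd.map (SSet.boundary.{u} m).ι) := by
  classical
  let CA : Chainy (SSet.boundary.{u} m).toSSet
      (fun s : Finset (ULift.{u} (Fin (m + 1))) => ∃ j, j ∉ s) :=
    (simplexChainy.{u} m).sub (SSet.boundary.{u} m) (fun _ _ => trivial)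
      (fun _ _ hts _ ⟨j, hj⟩ => ⟨j, fun h => hj (hts h)⟩)
      (fun {Δ} x => by
        obtain ⟨n⟩ := Δ
        rw [SSet.mem_boundary_iff_notMem_range]
        constructor
        · rintro ⟨j, hj⟩
          refine ⟨ULift.up j, fun h => hj ?_⟩
          simp only [Finset.mem_image, Finset.mem_univ, true_and] at h
          obtain ⟨i, hi⟩ := h
          exact ⟨i, congrArg ULift.down hi⟩
        · rintro ⟨j, hj⟩
          refine ⟨j.down, fun ⟨i, hi⟩ => hj ?_⟩
          simp only [Finset.mem_image, Finset.mem_univ, true_and]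
          exact ⟨i, ULift.ext _ _ hi⟩)
  have h := CA.Φ_naturality (simplexChainy.{u} m) (SSet.boundary.{u} m).ι (fun _ _ => trivial)
    (fun _ => rfl)
  have hmono : Mono (nerveMap (Monotone.functor
      (f := fun c : Chains (fun s : Finset (ULift.{u} (Fin (m + 1))) => ∃ j, j ∉ s) =>
        (⟨c.1, trivial⟩ : Chains (fun _ : Finset (ULift.{u} (Fin (m + 1))) => True)))
      fun _ _ h => h)) := by
    rw [NatTrans.mono_iff_mono_app]
    intro k
    rw [mono_iff_injective]
    intro x y hxy
    refine nerve.ext_of_isThin (funext fun i => Subtype.ext ?_)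
    exact congrArg (fun w : (nerve (Chains (fun _ : Finset (ULift.{u} (Fin (m + 1))) => True))).obj k
      => (w.obj i).1) hxy
  have : Mono (SSet.sd.map (SSet.boundary.{u} m).ι ≫ (simplexChainy.{u} m).Φ) := by
    rw [h]; infer_instance
  exact mono_of_mono _ (simplexChainy.{u} m).Φ

/-- Monic after subdivision and propagating the weak equivalence of the last vertex map. -/
def LastGood : MorphismProperty SSet.{u} := fun X Y f =>
  Mono (SSet.sd.map f) ∧ Mono f ∧ (WE (lastVertexMap.app X) → WE (lastVertexMap.app Y))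

theorem lastGood_cell {m : ℕ} (hA : WE (lastVertexMap.app (SSet.boundary.{u} m).toSSet))
    {P Q : SSet.{u}} {g : (SSet.boundary.{u} m).toSSet ⟶ P} {j : Δ[m] ⟶ Q} {f : P ⟶ Q}
    (sq : IsPushout g (SSet.boundary.{u} m).ι f j) : LastGood f := by
  have sS := sq.flip.map SSet.sd
  have := mono_sd_boundary.{u} m
  have hmono : Mono f := MorphismProperty.of_isPushout (P := monomorphisms SSet.{u}) sq
    (monomorphisms.infer_property _)
  refine ⟨MorphismProperty.of_isPushout (P := monomorphisms SSet.{u}) sS.flip
    (monomorphisms.infer_property _), hmono, fun hP => ?_⟩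
  have h := weqGluing (lastVertexMap.app _) (lastVertexMap.app (Δ[m] : SSet.{u}))
    (lastVertexMap.app P) (lastVertexMap.app Q) sS sq.flip inferInstance inferInstance
    (lastVertexMap.naturality _) (lastVertexMap.naturality _) (lastVertexMap.naturality _)
    (lastVertexMap.naturality _)
    ((isWeakHomotopyEquiv_iff _).2 hA)
    ((isWeakHomotopyEquiv_iff _).2 (we_lastVertexMap_stdSimplex m))
    ((isWeakHomotopyEquiv_iff _).2 hP)
  exact (isWeakHomotopyEquiv_iff _).1 h

theorem we_lastVertexMap_iso {X Y : SSet.{u}} (e : X ≅ Y) (h : WE (lastVertexMap.app X)) :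
    WE (lastVertexMap.app Y) := by
  refine WE.of_comp_left (we_of_isIso (SSet.sd.map e.hom)) ?_
  rw [lastVertexMap.naturality e.hom]
  exact WE.comp h (we_of_isIso ((𝟭 SSet.{u}).map e.hom))

theorem we_lastVertexMap_of_isInitial {X : SSet.{u}} (hX : IsInitial X) :
    WE (lastVertexMap.app X) := by
  have h1 : IsInitial (SSet.sd.obj X) := IsInitial.isInitialObj SSet.sd X hX
  have : IsIso (lastVertexMap.app X) :=
    ⟨hX.to (SSet.sd.obj X), h1.hom_ext _ _, hX.hom_ext _ _⟩
  exact we_of_isIso _

theorem transfiniteCompositions_lastGood_le :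
    transfiniteCompositions.{u} LastGood ≤ LastGood.{u} := by
  intro X Y f hf
  obtain ⟨J, _, _, _, _, ⟨h⟩⟩ := (transfiniteCompositions_iff _ f).1 hf
  have hleS : LastGood ≤ (monomorphisms SSet.{u}).inverseImage SSet.sd := fun _ _ _ hg => hg.1
  have hleT : LastGood ≤ monomorphisms SSet.{u} := fun _ _ _ hg => hg.2.1
  have : PreservesWellOrderContinuousOfShape J SSet.sd.{u} := ⟨fun _ _ => inferInstance⟩
  have monoS : ∀ {i j : J} (φ : i ⟶ j), Mono (SSet.sd.map (h.F.map φ)) := fun φ =>
    (h.ofLE hleS).map.mem_map φ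
  have monoT : ∀ {i j : J} (φ : i ⟶ j), Mono (h.F.map φ) := fun φ => (h.ofLE hleT).mem_map φ
  refine ⟨(monomorphisms SSet.{u}).transfiniteCompositionsOfShape_le J _ (h.ofLE hleS).map.mem,
    (monomorphisms SSet.{u}).transfiniteCompositionsOfShape_le J _ (h.ofLE hleT).mem,
    fun hX => ?_⟩
  have hj : ∀ j, WE (lastVertexMap.app (h.F.obj j)) := by
    intro j
    induction j using SuccOrder.limitRecOn with
    | isMin j hj =>
      obtain rfl := hj.eq_bot
      exact we_lastVertexMap_iso h.isoBot.symm hX
    | succ j hj ih => exact (h.map_mem j hj).2.2 ih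
    | isSuccLimit j hj ih =>
      let _ : OrderBot (Set.Iio j) := { bot := ⟨⊥, hj.bot_lt⟩, bot_le := fun _ => bot_le }
      let _ : SuccOrder (Set.Iio j) := SuccOrder.ofLinearWellFoundedLT _
      let D := (Set.principalSegIio j).monotone.functor ⋙ h.F
      have : D.IsWellOrderContinuous :=
        inferInstanceAs ((Set.principalSegIio j : Set.Iio j ≤i J).monotone.functor ⋙
          h.F).IsWellOrderContinuous
      have : PreservesWellOrderContinuousOfShape (Set.Iio j) SSet.sd.{u} :=
        ⟨fun _ _ => inferInstance⟩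
      have hcol := h.F.isColimitOfIsWellOrderContinuous j hj
      refine (isWeakHomotopyEquiv_iff _).1 (weqChain (Set.Iio j) (D ⋙ SSet.sd) D
        (fun _ _ φ => ⟨monoS _, monoT _⟩) (Functor.whiskerLeft D lastVertexMap)
        (fun k => (isWeakHomotopyEquiv_iff _).2 (ih k.1 k.2)) _ _
        (isColimitOfPreserves SSet.sd hcol) hcol _ fun k => lastVertexMap.naturality _)
  exact (isWeakHomotopyEquiv_iff _).1 (weqChain J (h.F ⋙ SSet.sd) h.F
    (fun _ _ φ => ⟨monoS φ, monoT φ⟩) (Functor.whiskerLeft h.F lastVertexMap)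
    (fun j => (isWeakHomotopyEquiv_iff _).2 (hj j)) _ _ (isColimitOfPreserves SSet.sd h.isColimit)
    h.isColimit _ fun k => lastVertexMap.naturality _)

theorem lastGood_coproducts {C : Type*} (σ : C → ℕ)
    (hA : ∀ c, WE (lastVertexMap.app (SSet.boundary.{u} (σ c)).toSSet)) :
    (coproducts.{u} (MorphismProperty.ofHoms fun c => (SSet.boundary.{u} (σ c)).ι)).pushouts ≤
      LastGood := by
  refine le_trans (coprodCells SSet.{u} _) (le_trans (transfiniteCompositions_monotone ?_)
    transfiniteCompositions_lastGood_le)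
  rintro P Q f ⟨A, B, p, g, j, hp, sq⟩
  obtain ⟨c⟩ := hp
  exact lastGood_cell (hA c) sq

/-- The last vertex map on the skeleta of simplicial sets. -/
theorem we_lastVertexMap_skeleton (d : ℕ) : ∀ X : SSet.{u},
    WE (lastVertexMap.app ((SSet.relativeCellComplex X).F.obj d)) := by
  induction d with
  | zero =>
    intro X
    exact we_lastVertexMap_iso (SSet.relativeCellComplex X).isoBot.symm
      (we_lastVertexMap_of_isInitial SSet.Subcomplex.isInitialBot)
  | succ d ih =>
    intro X
    have hA : WE (lastVertexMap.app (SSet.boundary.{u} d).toSSet) := by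
      have e : SSet.skeletonOfMono (⊥ : (SSet.boundary.{u} d).toSSet.Subcomplex).ι d = ⊤ := by
        refine le_antisymm le_top ?_
        rw [SSet.Subcomplex.le_iff_contains_nonDegenerate]
        intro i x _
        exact (SSet.mem_skeletonOfMono_obj_iff_of_nonDegenerate _ x d).2
          (.inr (SSet.dim_lt_of_nonDegenerate (X := _) x d))
      exact we_lastVertexMap_iso (SSet.Subcomplex.eqToIso e ≪≫ SSet.Subcomplex.topIso _)
        (ih (SSet.boundary.{u} d).toSSet)
    have h := ((SSet.relativeCellComplex X).attachCells d (by simp)).pushouts_coproducts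
    exact (lastGood_coproducts (fun _ : Unit => d) (fun _ => hA) _ h).2.2 (ih X)

theorem we_lastVertexMap (X : SSet.{u}) : WE (lastVertexMap.app X) := by
  have hA : ∀ m, WE (lastVertexMap.app (SSet.boundary.{u} m).toSSet) := fun m => by
    have e : SSet.skeletonOfMono (⊥ : (SSet.boundary.{u} m).toSSet.Subcomplex).ι m = ⊤ := by
      refine le_antisymm le_top ?_
      rw [SSet.Subcomplex.le_iff_contains_nonDegenerate]
      intro i x _
      exact (SSet.mem_skeletonOfMono_obj_iff_of_nonDegenerate _ x m).2
        (.inr (SSet.dim_lt_of_nonDegenerate (X := _) x m))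
    exact we_lastVertexMap_iso (SSet.Subcomplex.eqToIso e ≪≫ SSet.Subcomplex.topIso _)
      (we_lastVertexMap_skeleton m _)
  have hI : (coproducts.{u} SSet.modelCategoryQuillen.I.{u}).pushouts ≤ LastGood.{u} :=
    lastGood_coproducts (fun m : ℕ => m) hA
  have h0 : LastGood (SSet.Subcomplex.ι (⊥ : X.Subcomplex)) :=
    transfiniteCompositions_lastGood_le _ (transfiniteCompositions_monotone hI _
      (transfiniteCompositionsOfShape_le_transfiniteCompositions _ _ _
        ⟨((SSet.relativeCellComplex X).transfiniteCompositionOfShape' (fun _ => ⟨_⟩)).ofOrderIso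
          (orderIsoShrink.{u} ℕ).symm⟩))
  exact h0.2.2 (we_lastVertexMap_of_isInitial SSet.Subcomplex.isInitialBot)

end

end Vale.Agent.P213.SSetH
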