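import Vale.Agent.P213.SSet.ExWeq.Unit
import Vale.Agent.P213.SSet.Ex.Infinity

/-!
# P213: trivial fibrations
-/

universe u

namespace Vale.Agent.P213

/-- Trivial fibrations are the fibrations that are weak equivalences. -/
theorem trivialFibration : Spec.TrivialFibration.{u} :=
  trivialFibration_of SSetH.we_toEx

end Vale.Agent.P213
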