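import Vale.Agent.P213.SSet.ExWeq.LastVertex

/-!
# P213: the map into `Ex` is a weak equivalence

The two maps `Ex X ⟶ Ex Ex X` are homotopic, and into a Kan complex `K` the map `K ⟶ Ex K` has a
left inverse up to homotopy, as the last vertex map is a weak equivalence.
-/

universe u

namespace Vale.Agent.P213.SSetH

open CategoryTheory CategoryTheory.Limits MonoidalCategory CartesianMonoidalCategory SSet
  Simplicial Opposite PartialOrder

noncomputable section

variable {X Y : SSet.{u}} {m k : ℕ}

open Classical in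
/-- The map of faces in the homotopy between the two maps `Ex X ⟶ Ex Ex X`. -/
def mixMap (t : Fin (m + 1) →o Fin 2) (σ : Fin (k + 1) →o Spec.Face.{u} m) :
    Spec.Face.{u} k →o Spec.Face.{u} m where
  toFun c := if t (maxV m (σ (maxV k c))) = 0 then faceMap ((maxV m).comp σ) c else σ (maxV k c)
  monotone' c c' h := by
    have hk : maxV k c ≤ maxV k c' := (maxV k).monotone h
    have ht := t.monotone ((maxV m).monotone (σ.monotone hk))
    have h01 : faceMap ((maxV m).comp σ) c ≤ σ (maxV k c') := by
      intro x hx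
      obtain ⟨y, hy, rfl⟩ := (NonemptyFiniteChains.mem_map_iff _ _ _).1 hx
      exact σ.monotone (le_trans (Finset.le_sup' ULift.down hy) hk)
        (maxV_mem (σ y.down))
    dsimp only
    split_ifs with a b b
    · exact (faceMap ((maxV m).comp σ)).monotone h
    · exact h01
    · rw [b] at ht
      exact absurd (le_antisymm ht (Fin.zero_le _)) a
    · exact σ.monotone hk

/-- The vertices of a simplex of a nerve. -/
def simpVert {P : Type u} [PartialOrder P] {n : SimplexCategoryᵒᵖ} (σ : (nerve P).obj n) :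
    Fin (n.unop.len + 1) →o P :=
  ⟨fun i => σ.obj i, fun _ _ h => leOfHom (σ.map (homOfLE h))⟩

theorem mixMap_precomp (t : Fin (m + 1) →o Fin 2) (σ : Fin (k + 1) →o Spec.Face.{u} m) {l : ℕ}
    (φ : Fin (l + 1) →o Fin (k + 1)) (c : Spec.Face.{u} l) :
    mixMap t (σ.comp φ) c = mixMap t σ (faceMap φ c) := by
  classical
  show (if t (maxV m (σ (φ (maxV l c)))) = 0 then _ else σ (φ (maxV l c))) =
    (if t (maxV m (σ (maxV k (faceMap φ c)))) = 0 then _ else σ (maxV k (faceMap φ c)))
  rw [maxV_faceMap]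
  split_ifs
  · refine NonemptyFiniteChains.ext (Finset.ext fun x => ?_)
    constructor
    · intro hx
      obtain ⟨y, hy, rfl⟩ := (NonemptyFiniteChains.mem_map_iff _ _ _).1 hx
      exact (NonemptyFiniteChains.mem_map_iff _ _ _).2
        ⟨_, (NonemptyFiniteChains.mem_map_iff _ _ _).2 ⟨y, hy, rfl⟩, rfl⟩
    · intro hx
      obtain ⟨z, hz, rfl⟩ := (NonemptyFiniteChains.mem_map_iff _ _ _).1 hx
      obtain ⟨y, hy, rfl⟩ := (NonemptyFiniteChains.mem_map_iff _ _ _).1 hz
      exact (NonemptyFiniteChains.mem_map_iff _ _ _).2 ⟨y, hy, rfl⟩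
  · rfl

theorem mixMap_postcomp {m' : ℕ} (θ : Fin (m + 1) →o Fin (m' + 1))
    (t : Fin (m' + 1) →o Fin 2) (σ : Fin (k + 1) →o Spec.Face.{u} m) (c : Spec.Face.{u} k) :
    faceMap θ (mixMap (t.comp θ) σ c) = mixMap t ((faceMap θ).comp σ) c := by
  classical
  show faceMap θ (if t (θ (maxV m (σ (maxV k c)))) = 0 then _ else σ (maxV k c)) =
    (if t (maxV m' (faceMap θ (σ (maxV k c)))) = 0 then _ else faceMap θ (σ (maxV k c)))
  rw [maxV_faceMap]
  split_ifs
  · refine NonemptyFiniteChains.ext (Finset.ext fun x => ?_)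
    constructor
    · intro hx
      obtain ⟨z, hz, rfl⟩ := (NonemptyFiniteChains.mem_map_iff _ _ _).1 hx
      obtain ⟨y, hy, rfl⟩ := (NonemptyFiniteChains.mem_map_iff _ _ _).1 hz
      refine (NonemptyFiniteChains.mem_map_iff _ _ _).2 ⟨y, hy, ?_⟩
      exact congrArg ULift.up (maxV_faceMap θ (σ y.down))
    · intro hx
      obtain ⟨y, hy, rfl⟩ := (NonemptyFiniteChains.mem_map_iff _ _ _).1 hx
      exact (NonemptyFiniteChains.mem_map_iff _ _ _).2
        ⟨_, (NonemptyFiniteChains.mem_map_iff _ _ _).2 ⟨y, hy, rfl⟩,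
          congrArg ULift.up (maxV_faceMap θ (σ y.down)).symm⟩
  · rfl

/-- A simplex of the homotopy between the two maps `Ex X ⟶ Ex Ex X`. -/
def mixSimplex (z : (SSet.ex.obj X).obj (op ⦋m⦌)) (t : Fin (m + 1) →o Fin 2) :
    nerve (Spec.Face.{u} m) ⟶ SSet.ex.obj X where
  app n := TypeCat.ofHom fun σ =>
    ULift.up (nerveMap (mixMap t (simpVert σ)).monotone.functor ≫ exDown z)
  naturality n n' f := by
    apply ConcreteCategory.hom_ext
    intro σ
    refine congrArg ULift.up ?_
    show nerveMap (mixMap t (simpVert ((nerve (Spec.Face.{u} m)).map f σ))).monotone.functor ≫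
        exDown z = nerveMap (faceMap f.unop.toOrderHom).monotone.functor ≫
          nerveMap (mixMap t (simpVert σ)).monotone.functor ≫ exDown z
    rw [← Category.assoc]
    congr 1
    apply NatTrans.ext
    funext j
    refine ConcreteCategory.hom_ext _ _ fun y =>
      nerve.ext_of_isThin (C := Spec.Face.{u} m) (funext fun i => ?_)
    exact mixMap_precomp t (simpVert σ) f.unop.toOrderHom (y.obj i)

/-- The homotopy between the two maps `Ex X ⟶ Ex Ex X`. -/
def mixHomotopy (X : SSet.{u}) :
    SSet.ex.obj X ⊗ (Δ[1] : SSet.{u}) ⟶ SSet.ex.obj (SSet.ex.obj X) where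
  app n := TypeCat.ofHom fun p =>
    ULift.up (mixSimplex (m := n.unop.len) p.1 (stdSimplex.asOrderHom p.2))
  naturality n n' f := by
    apply ConcreteCategory.hom_ext
    intro p
    refine congrArg ULift.up ?_
    apply NatTrans.ext
    funext j
    apply ConcreteCategory.hom_ext
    intro σ
    refine congrArg ULift.up ?_
    show nerveMap (mixMap ((stdSimplex.asOrderHom p.2).comp f.unop.toOrderHom)
        (simpVert σ)).monotone.functor ≫
          (nerveMap (faceMap f.unop.toOrderHom).monotone.functor ≫ exDown p.1) =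
      nerveMap (mixMap (stdSimplex.asOrderHom p.2)
        ((faceMap f.unop.toOrderHom).comp (simpVert σ))).monotone.functor ≫ exDown p.1
    rw [← Category.assoc]
    congr 1
    apply NatTrans.ext
    funext l
    refine ConcreteCategory.hom_ext _ _ fun y =>
      nerve.ext_of_isThin (C := Spec.Face.{u} n.unop.len) (funext fun i => ?_)
    exact mixMap_postcomp f.unop.toOrderHom (stdSimplex.asOrderHom p.2) (simpVert σ) (y.obj i)

/-- The two maps `Ex X ⟶ Ex Ex X` are homotopic. -/
theorem htp_toEx_ex (X : SSet.{u}) :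
    Htp (toEx.app (SSet.ex.obj X)) (SSet.ex.map (toEx.app X)) := by
  refine ⟨mixHomotopy X, ?_, ?_⟩
  · ext ⟨n⟩ z
    induction n using SimplexCategory.rec with | _ m
    refine congrArg ULift.up ?_
    apply NatTrans.ext
    funext j
    refine ConcreteCategory.hom_ext _ _ fun σ => ?_
    refine ((congrArg ULift.up ?_).trans (yonedaEquiv_symm_app_objEquiv_symm z
      (SimplexCategory.Hom.mk ((maxV m).comp (simpVert σ)))).symm)
    rfl
  · ext ⟨n⟩ z
    induction n using SimplexCategory.rec with | _ m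
    refine congrArg ULift.up ?_
    apply NatTrans.ext
    funext j
    apply ConcreteCategory.hom_ext
    intro σ
    refine congrArg ULift.up ?_
    apply NatTrans.ext
    funext l
    refine ConcreteCategory.hom_ext _ _ fun y => ?_
    refine Eq.trans ?_ (yonedaEquiv_symm_app_objEquiv_symm ((exDown z).app j σ)
      (SimplexCategory.Hom.mk ((maxV j.unop.len).comp (simpVert y)))).symm
    let φ : l.unop ⟶ j.unop := SimplexCategory.Hom.mk ((maxV j.unop.len).comp (simpVert y))
    refine Eq.trans ?_ (NatTrans.naturality_apply (exDown z) φ.op σ)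
    rfl

/-- `Ex X ⊗ Δ[1] ⟶ Ex (X ⊗ Δ[1])`. -/
def exProd (X : SSet.{u}) :
    SSet.ex.obj X ⊗ (Δ[1] : SSet.{u}) ⟶ SSet.ex.obj (X ⊗ Δ[1]) where
  app n := TypeCat.ofHom fun p => ULift.up
    (lift (exDown (m := n.unop.len) p.1)
      (exDown (m := n.unop.len) ((toEx.app (Δ[1] : SSet.{u})).app n p.2)))
  naturality n n' f := by
    apply ConcreteCategory.hom_ext
    intro p
    refine congrArg ULift.up ?_
    show lift (exDown ((SSet.ex.obj X).map f p.1))
        (exDown ((toEx.app (Δ[1] : SSet.{u})).app n' ((Δ[1] : SSet.{u}).map f p.2))) =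
      nerveMap (faceMap f.unop.toOrderHom).monotone.functor ≫
        lift (exDown (m := n.unop.len) p.1)
          (exDown (m := n.unop.len) ((toEx.app (Δ[1] : SSet.{u})).app n p.2))
    rw [CartesianMonoidalCategory.comp_lift]
    exact congrArg (fun w => lift _ (exDown w))
      (NatTrans.naturality_apply (toEx.app (Δ[1] : SSet.{u})) f p.2)

/-- `Ex` preserves homotopies. -/
theorem Htp.ex {f g : X ⟶ Y} (h : Htp f g) : Htp (SSet.ex.map f) (SSet.ex.map g) := by
  obtain ⟨H, h0, h1⟩ := h
  refine ⟨exProd X ≫ SSet.ex.map H, ?_, ?_⟩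
  · ext ⟨n⟩ z
    induction n using SimplexCategory.rec with | _ m
    refine congrArg ULift.up ?_
    show lift (exDown z) _ ≫ H = exDown z ≫ f
    rw [← h0, ← Category.assoc]
    congr 1
  · ext ⟨n⟩ z
    induction n using SimplexCategory.rec with | _ m
    refine congrArg ULift.up ?_
    show lift (exDown z) _ ≫ H = exDown z ≫ g
    rw [← h1, ← Category.assoc]
    congr 1

theorem sd_map_toEx_lastVertexMap (K : SSet.{u}) :
    SSet.sd.map (toEx.app K) ≫ SSet.sdExAdjunction.counit.app K = lastVertexMap.app K := rfl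

/-- Into a Kan complex, `K ⟶ Ex K` has a left inverse up to homotopy. -/
theorem exists_retraction (K : SSet.{u}) [KanComplex K] :
    ∃ r : SSet.ex.obj K ⟶ K, Htp (toEx.app K ≫ r) (𝟙 K) := by
  obtain ⟨r, hr⟩ := (we_lastVertexMap (SSet.ex.obj K) K inferInstance).1
    (SSet.sdExAdjunction.counit.app K)
  refine ⟨r, (we_lastVertexMap K K inferInstance).2 _ _ ?_⟩
  have h := hr.comp_left (SSet.sd.map (toEx.app K))
  rw [sd_map_toEx_lastVertexMap] at h
  have e : SSet.sd.map (toEx.app K) ≫ lastVertexMap.app (SSet.ex.obj K) ≫ r =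
      lastVertexMap.app K ≫ toEx.app K ≫ r :=
    lastVertexMap.naturality_assoc (toEx.app K) r
  rw [e] at h
  simpa using h

/-- The map into `Ex` is a weak equivalence. -/
theorem we_toEx (X : SSet.{u}) : WE (toEx.app X) := fun K hK => by
  obtain ⟨r, hr⟩ := exists_retraction K
  have nat : ∀ {A : SSet.{u}} (g : A ⟶ K), toEx.app A ≫ SSet.ex.map g = g ≫ toEx.app K :=
    fun g => (toEx.naturality g).symm
  refine ⟨fun g => ⟨SSet.ex.map g ≫ r, ?_⟩, fun h h' hh => ?_⟩
  · rw [reassoc_of% nat g]
    simpa using hr.comp_left g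
  · have key : ∀ q : SSet.ex.obj X ⟶ K, Htp q (SSet.ex.map (toEx.app X ≫ q) ≫ r) := fun q => by
      have e1 : Htp q (toEx.app (SSet.ex.obj X) ≫ SSet.ex.map q ≫ r) := by
        rw [reassoc_of% nat q]
        simpa using (hr.comp_left q).symm
      have e2 := (htp_toEx_ex X).comp_right (SSet.ex.map q ≫ r)
      rw [Functor.map_comp, Category.assoc]
      exact e1.trans e2
    exact ((key h).trans (hh.ex.comp_right r)).trans (key h').symm

end

end Vale.Agent.P213.SSetH

namespace Vale.Agent.P213

open CategoryTheory SSetH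

/-- `Ex` preserves and reflects weak equivalences. -/
theorem exWeq : Spec.ExWeq.{u} := fun X Y f => by
  rw [weq_eq]
  have e : toEx.app X ≫ SSet.ex.map f = f ≫ toEx.app Y := (toEx.naturality f).symm
  constructor
  · intro h
    exact WE.of_comp_right (we_toEx Y) (e ▸ WE.comp (we_toEx X) h)
  · intro h
    exact WE.of_comp_left (we_toEx X) (e.symm ▸ WE.comp h (we_toEx Y))

/-- The unit of subdivision and extension is a weak equivalence. -/
theorem sdExUnit : Spec.SdExUnit.{u} := fun K => by
  have e : SSet.sdExAdjunction.unit.app K ≫ SSet.ex.map (lastVertexMap.app K) = toEx.app K := by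
    show SSet.sdExAdjunction.unit.app K ≫
      SSet.ex.map (SSet.sd.map (toEx.app K) ≫ SSet.sdExAdjunction.counit.app K) = _
    exact ((congrArg (_ ≫ ·) (SSet.ex.map_comp _ _)).trans
      (SSet.sdExAdjunction.unit_naturality_assoc (toEx.app K) _)).trans
      ((congrArg (toEx.app K ≫ ·) (SSet.sdExAdjunction.right_triangle_components K)).trans
        (Category.comp_id _))
  have hp : Spec.weq (lastVertexMap.app K) := by rw [weq_eq]; exact we_lastVertexMap K
  have hEx := (exWeq _ _ _).2 hp
  rw [weq_eq] at hEx ⊢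
  exact WE.of_comp_right hEx (e.symm ▸ we_toEx K)

end Vale.Agent.P213
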